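import Vale.Agent.P353.BFSS

/-!
# The mass-deformed (plane-wave, BMN) matrix model

For a mass parameter `m` the supercharges of the BFSS model are deformed to
`Q_α + m a_i x_i^A (γ^i Γ θ^A)_α`, `Γ = γ^1 γ^2 γ^3`, with `a_i = 2` for the first three and `a_i = 1`
for the other six directions (the plane-wave model of Berenstein, Maldacena and Nastase with
`μ = 6m`). `m = 0` is the BFSS model.
-/

open MeasureTheory Filter Topology
open scoped ContDiff

namespace Vale.Agent.P353.BFSS

variable {N d : ℕ} {F : Type*} [NormedAddCommGroup F] [InnerProductSpace ℂ F]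

namespace Model

/-- The weights `a_i`: `2` for the directions `1, 2, 3` and `1` for the directions `4, …, 9`. -/
noncomputable def weight (i : Fin 9) : ℝ := if i.val < 3 then 2 else 1

/-- The supercharge of the mass-deformed model,
`Q_α + m a_i x_i^A (γ^i γ^1 γ^2 γ^3 θ^A)_α`. -/
noncomputable def massQ (M : Model N d F) (m : ℝ) (α : Fin 16) (u : Conf d → F) (x : Conf d) : F :=
  M.Q α u x + (m : ℂ) • ∑ i, ∑ A, ∑ β,
    ((weight i * x (i, A) * (M.γ i * (M.γ 0 * M.γ 1 * M.γ 2)) α β : ℝ) : ℂ) • M.θ β A (u x)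

/-- The quadratic form `q_{N,m}(u) = (1/16) ∑ α, ‖Q_α^{(m)} u‖²` of the Hamiltonian `H_{N,m}`. -/
noncomputable def massForm (M : Model N d F) (m : ℝ) (u : Conf d → F) : ℝ :=
  (1 / 16 : ℝ) * ∑ α, ∫ x, ‖M.massQ m α u x‖ ^ 2 ∂leb d

/-- `Ψ ∈ ker H_{N,m}`: `Ψ` is square integrable and is the `L²` limit of a sequence of smooth
compactly supported `SU(N)`-invariant functions whose energies `q_{N,m}` tend to `0` (that is, `Ψ`
lies in the domain of the closure of `q_{N,m}` and this closure vanishes at `Ψ`). -/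
def IsGroundState (M : Model N d F) (m : ℝ) (Ψ : Conf d → F) : Prop :=
  MemLp Ψ 2 (leb d) ∧ ∃ u : ℕ → Conf d → F, (∀ n, M.IsCore (u n)) ∧
    Tendsto (fun n => ∫ x, ‖u n x - Ψ x‖ ^ 2 ∂leb d) atTop (𝓝 0) ∧
    Tendsto (fun n => M.massForm m (u n)) atTop (𝓝 0)

end Model

end Vale.Agent.P353.BFSS
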