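import Mathlib
import Vale.Agent.P353.H48.Defs
import Vale.Agent.P353.BdZ.B17
import Vale.Agent.P353.BdZ.B14
import Vale.Agent.P353.BdZ.B13
import Vale.Agent.P353.BdZ.B5

set_option linter.all false

/-! # The mass-deformed model: supercharges, forms, existence of ground states -/

open MeasureTheory Filter Topology
open scoped ContDiff

namespace Vale.Agent.P353.H48

open Vale.Agent.P353.Z Vale.Agent.P353.Z.U Vale.Agent.P353.Z.U.HB

variable {N d : ℕ} {F : Type*} [NormedAddCommGroup F] [InnerProductSpace ℂ F]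
  {M : BFSS.Model N d F} {S : Setup d F}

/-- the supercharges of the mass-deformed model in the two notations -/
theorem mass_Q (hR : Rep M S) (m : ℝ) (β : Fin 16) {u : Cfg d → F} {x : Cfg d}
    (hu : DifferentiableAt ℝ u x) : M.massQ m β u x = S.Qm m β u x := by
  rw [BFSS.Model.massQ, Setup.Qm, mb_Q hR β hu]
  congr 2
  have hg : ∀ i, S.g i = (M.γ i).map (fun r : ℝ => (r : ℂ)) := fun i => by
    ext α γ
    rw [hR.hg, Matrix.map_apply]
  have hmul : ∀ A B : Matrix (Fin 16) (Fin 16) ℝ, A.map (fun r : ℝ => (r : ℂ)) *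
      B.map (fun r : ℝ => (r : ℂ)) = (A * B).map (fun r : ℝ => (r : ℂ)) := fun A B => by
    ext α γ
    simp only [Matrix.mul_apply, Matrix.map_apply]
    push_cast
    rfl
  have hG : ∀ i, S.g i * S.Gam = (M.γ i * (M.γ 0 * M.γ 1 * M.γ 2)).map (fun r : ℝ => (r : ℂ)) := by
    intro i
    rw [Setup.Gam, hg, hg, hg, hg, hmul, hmul, hmul]
  unfold Setup.MM
  simp only [_root_.sum_apply, _root_.smul_apply]
  refine Finset.sum_congr rfl fun i _ => Finset.sum_congr rfl fun A _ => ?_
  rw [CS.vec, _root_.sum_apply, Finset.smul_sum]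
  refine Finset.sum_congr rfl fun γ _ => ?_
  rw [_root_.smul_apply, smul_smul, hG, Matrix.map_apply, hR.hth]
  congr 1
  rw [show (BFSS.Model.weight i) = aw i from rfl]
  push_cast
  ring

/-- the form in the two notations -/
theorem mass_form (hR : Rep M S) (m : ℝ) {u : Cfg d → F} (hu : Setup.Tst u) :
    M.massForm m u = (1 / 16 : ℝ) * ∑ β, nsq (S.Qm m β u) := by
  rw [BFSS.Model.massForm, BFSS.leb]
  congr 1
  refine Finset.sum_congr rfl fun α _ => integral_congr_ae (Filter.Eventually.of_forall fun x => ?_)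
  simp only
  rw [mass_Q hR m α (hu.diff x)]

/-- `Low k m (8 m)` gives `k` independent ground states of the model with mass `m` -/
theorem states_of_low (hF : FiniteDimensional ℂ F) (hR : Rep M S)
    (hcore : ∀ u : Cfg d → F, Setup.Tst u → (∀ C x, S.G C u x = 0) → M.IsCore u)
    {k : ℕ} {m : ℝ} (hm : 0 < m) (hL : S.Low k m (8 * m)) :
    ∃ Φ : Fin k → Cfg d → F, (∀ j, M.IsGroundState m (Φ j)) ∧
      ∀ a : Fin k → ℂ, a ≠ 0 → 0 < nsq (fun x => ∑ j, a j • Φ j x) := by
  have : CompleteSpace F := FiniteDimensional.complete ℂ F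
  obtain ⟨Ψ, h1, h2, h3⟩ := k_zm S (All.A2 S) (All.A3 S)
    (cgap S (All.A1 S) (All.A2 S) (All.A3 S) (All.A4 S) (All.A7 S)) hm hL
  refine ⟨Ψ, fun j => ?_, h3⟩
  obtain ⟨u, hu, hl, hq⟩ := ws S (All.A7 S) m (Ψ j) (h1 j) (h2 j)
  refine ⟨hl.mem', u, fun n => hcore (u n) (hu n).1 (hu n).2.1, hl.lim, ?_⟩
  have h4 : (fun n => M.massForm m (u n)) = fun n => (1 / 16 : ℝ) * ∑ β, nsq (S.Qm m β (u n)) := by
    funext n
    exact mass_form hR m (hu n).1
  rw [h4]
  simpa using hq.const_mul (1 / 16 : ℝ)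

end Vale.Agent.P353.H48
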