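import Mathlib
import Vale.Agent.P353.H48.A
import Vale.Agent.P353.BdA.B15

set_option linter.all false

/-! # The mass-deformed model: upper bound for the number of ground states -/

open MeasureTheory Filter Topology
open scoped ContDiff

namespace Vale.Agent.P353.H48

open Vale.Agent.P353.Z Vale.Agent.P353.Z.U Vale.Agent.P353.Z.U.HB Vale.Agent.P353.Z.AH.Br
open Vale.Agent.P353.Z.U.WS

variable {N d : ℕ} {F : Type*} [NormedAddCommGroup F] [InnerProductSpace ℂ F]
  {M : BFSS.Model N d F} {S : Setup d F}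

/-- a ground state is a weakly gauge invariant weak zero mode of the supercharges -/
theorem weak_of_ground (hR : Rep M S) (hG : GaussStmt M) {m : ℝ} {Ψ : Cfg d → F}
    (h : M.IsGroundState m Ψ) : MemLp Ψ 2 (volume : Measure (Cfg d)) ∧ S.wG Ψ ∧
      ∀ β ζ, Setup.Tst ζ → ∫ x, inner ℂ (S.Qm m β ζ x) (Ψ x) = 0 := by
  obtain ⟨hΨ, u, hu, hl, hq⟩ := h
  have hT : ∀ n, Setup.Tst (u n) := fun n => ⟨(hu n).1, (hu n).2.1⟩
  have hL : L2t u Ψ := ⟨fun n => (hT n).memLp, hΨ, hl⟩
  refine ⟨hΨ, ?_, fun β ζ hζ => ?_⟩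
  · intro C ζ hζ
    have h1 := (L2t_const (hζ.G S C).memLp).lim_inner hL
    refine tendsto_nhds_unique h1 (tendsto_const_nhds.congr fun n => ?_)
    rw [G_symm S C ζ (u n) hζ (hT n).1]
    simp only [hG S hR (u n) (hu n) C, inner_zero_right, integral_zero]
  · refine wQ_of_lim S hT hL ?_ β hζ
    have h2 : (fun n => S.en m (u n)) = fun n => 16 * M.massForm m (u n) := by
      funext n
      rw [mass_form hR m (hT n)]
      unfold Setup.en
      ring
    rw [h2]
    simpa using hq.const_mul 16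

/-- a ground state of the model with mass `m > 0` is the limit of invariant test functions whose
energies tend to `0` -/
theorem apx_of_ground (hF : FiniteDimensional ℂ F) (hR : Rep M S) (hG : GaussStmt M) {m : ℝ}
    (hm : 0 < m) {Ψ : Cfg d → F} (h : M.IsGroundState m Ψ) :
    ∃ u : ℕ → Cfg d → F, (∀ n, S.Inv (u n)) ∧ L2t u Ψ ∧
      Tendsto (fun n => ∑ β, nsq (S.Qm m β (u n))) atTop (𝓝 0) := by
  have : CompleteSpace F := FiniteDimensional.complete ℂ F
  obtain ⟨hΨ, hwG, hwQ⟩ := weak_of_ground hR hG h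
  have hwJ : S.wJ Ψ := wJ_of_wQ S (All.A1 S) hm hΨ hwG hwQ
  obtain ⟨w, hw, hwl⟩ := clInv_of_w S hΨ hwG hwJ
  refine ws S (All.A7 S) m Ψ ⟨w, hw, hwl⟩ fun φ hφ => ?_
  have hI : ∀ {a : Cfg d → F}, Setup.Tst a → Integrable (fun x => inner ℂ (a x) (Ψ x)) := fun ha =>
    integrable_inner_memLp ha.memLp hΨ
  simp only [sum_inner]
  rw [integral_finsetSum _ fun β _ => hI (Tst_Qm S m β (Tst_Qm S m β hφ.1))]
  exact Finset.sum_eq_zero fun β _ => hwQ β _ (Tst_Qm S m β hφ.1)

/-- independent ground states give `Low` -/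
theorem low_of_states (hF : FiniteDimensional ℂ F) (hR : Rep M S) (hG : GaussStmt M) {m : ℝ}
    (hm : 0 < m) {k : ℕ} {Ψ : Fin k → Cfg d → F} (h : ∀ j, M.IsGroundState m (Ψ j))
    (hind : ∀ a : Fin k → ℂ, a ≠ 0 → 0 < nsq (fun x => ∑ j, a j • Ψ j x)) {c : ℝ} (hc : 0 < c) :
    S.Low k m c := by
  have : CompleteSpace F := FiniteDimensional.complete ℂ F
  choose u hu hl hq using fun j => apx_of_ground hF hR hG hm (h j)
  exact low_of_lim S hu hl hq hind hc

/-- there are never more than `n` independent ground states, `n` the number of wells -/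
theorem not_succ (hF : FiniteDimensional ℂ F) (hR : Rep M S) (hG : GaussStmt M) {n : ℕ}
    (hcnt : S.OrbCount n) {m : ℝ} (hm : 0 < m) {Ψ : Fin (n + 1) → Cfg d → F}
    (h : ∀ j, M.IsGroundState m (Ψ j)) :
    ∃ a : Fin (n + 1) → ℂ, a ≠ 0 ∧ nsq (fun x => ∑ j, a j • Ψ j x) = 0 := by
  by_contra hcon
  push Not at hcon
  have hirr : S.Irr := by
    intro W hW
    refine M.θ_irreducible W fun α A v hv => ?_
    have := hW α A v hv
    rwa [hR.hth] at this
  have hlow : ∀ c : ℝ, 0 < c → S.Low (n + 1) m c := fun c hc =>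
    low_of_states hF hR hG hm h
      (fun a ha => lt_of_le_of_ne (nsq_nonneg _) (Ne.symm (hcon a ha))) hc
  obtain ⟨M₀, hM₀, hT⟩ := All.thmC_all S n hirr M.nontrivial hcnt
  obtain ⟨ε, hε, hno⟩ := hT M₀ le_rfl
  exact hno (All.thmB_all S (n + 1) m hm (hlow (8 * m) (by positivity)) M₀ hM₀ ε hε)

/-- **the number of ground states**: with `n` wells and `Low n m c` for all `c`, the ground states form a
space of dimension exactly `n` -/
theorem count (hF : FiniteDimensional ℂ F) (hR : Rep M S) (hG : GaussStmt M)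
    (hcore : ∀ u : Cfg d → F, Setup.Tst u → (∀ C x, S.G C u x = 0) → M.IsCore u) {n : ℕ}
    (hcnt : S.OrbCount n) {m : ℝ} (hm : 0 < m) (hL : S.Low n m (8 * m)) :
    ∃ Φ : Fin n → Cfg d → F, (∀ j, M.IsGroundState m (Φ j)) ∧
      (∀ a : Fin n → ℂ, (∀ᵐ x ∂(volume : Measure (Cfg d)), ∑ j, a j • Φ j x = 0) → a = 0) ∧
      ∀ Ψ, M.IsGroundState m Ψ →
        ∃ a : Fin n → ℂ, ∀ᵐ x ∂(volume : Measure (Cfg d)), Ψ x = ∑ j, a j • Φ j x := by
  obtain ⟨Φ, hΦ, hind⟩ := states_of_low hF hR hcore hm hL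
  have hzero : ∀ {k : ℕ} (Θ : Fin k → Cfg d → F) (a : Fin k → ℂ),
      (∀ j, MemLp (Θ j) 2 (volume : Measure (Cfg d))) → nsq (fun x => ∑ j, a j • Θ j x) = 0 →
      ∀ᵐ x ∂(volume : Measure (Cfg d)), ∑ j, a j • Θ j x = 0 := by
    intro k Θ a hΘ h0
    have hm2 : MemLp (fun x => ∑ j, a j • Θ j x) 2 (volume : Measure (Cfg d)) :=
      memLp_finsetSum _ fun j _ => (hΘ j).const_smul (a j)
    have h1 : (fun x => ‖∑ j, a j • Θ j x‖ ^ 2) =ᵐ[volume] 0 :=
      (integral_eq_zero_iff_of_nonneg (fun x => by positivity) (memLp_norm_sq_int hm2)).mp h0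
    filter_upwards [h1] with x hx
    simpa using hx
  refine ⟨Φ, hΦ, fun a ha => ?_, fun Ψ hΨ => ?_⟩
  · by_contra hne
    have h1 := hind a hne
    have h2 : nsq (fun x => ∑ j, a j • Φ j x) = 0 := by
      unfold nsq
      rw [integral_congr_ae (g := fun _ => (0 : ℝ)) (ha.mono fun x hx => by simp only [hx]; simp)]
      simp
    linarith
  · obtain ⟨a, ha, h0⟩ := not_succ hF hR hG hcnt hm (Ψ := Fin.cons Ψ Φ)
      (fun j => by
        refine Fin.cases ?_ (fun i => ?_) j
        · exact hΨ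
        · exact hΦ i)
    have h1 := hzero (Fin.cons Ψ Φ : Fin (n + 1) → Cfg d → F) a (fun j => by
        refine Fin.cases ?_ (fun i => ?_) j
        · exact hΨ.1
        · exact (hΦ i).1) h0
    have hsum : ∀ x, ∑ j, a j • (Fin.cons Ψ Φ : Fin (n + 1) → Cfg d → F) j x =
        a 0 • Ψ x + ∑ j, a (Fin.succ j) • Φ j x := by
      intro x
      rw [Fin.sum_univ_succ]
      rfl
    simp only [hsum] at h1
    have ha0 : a 0 ≠ 0 := by
      intro h
      have h2 : (fun j => a (Fin.succ j)) = 0 := by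
        by_contra hne
        have h3 := hind _ hne
        have h4 : nsq (fun x => ∑ j, a (Fin.succ j) • Φ j x) = 0 := by
          unfold nsq
          rw [integral_congr_ae (g := fun _ => (0 : ℝ)) (h1.mono fun x hx => by
            rw [h, zero_smul, zero_add] at hx
            simp only [hx]
            simp)]
          simp
        linarith
      refine ha (funext fun j => ?_)
      refine Fin.cases ?_ (fun i => ?_) j
      · exact h
      · exact congrFun h2 i
    refine ⟨fun j => -((a 0)⁻¹ * a (Fin.succ j)), ?_⟩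
    filter_upwards [h1] with x hx
    have h2 : Ψ x = (a 0)⁻¹ • (a 0 • Ψ x) := by rw [smul_smul, inv_mul_cancel₀ ha0, one_smul]
    rw [h2, eq_neg_of_add_eq_zero_left hx, smul_neg, Finset.smul_sum, ← Finset.sum_neg_distrib]
    refine Finset.sum_congr rfl fun j _ => ?_
    rw [smul_smul, neg_smul]

end Vale.Agent.P353.H48
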