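import Mathlib
import Vale.Agent.P353.H48.A

set_option linter.all false

/-! # The mass-deformed model: the massless limit -/

open MeasureTheory Filter Topology
open scoped ContDiff

namespace Vale.Agent.P353.H48

open Vale.Agent.P353.Z Vale.Agent.P353.Z.U Vale.Agent.P353.Z.U.HB

variable {N d : ℕ} {F : Type*} [NormedAddCommGroup F] [InnerProductSpace ℂ F]
  {M : BFSS.Model N d F} {S : Setup d F}

/-- an invariant test function is close to a weak zero mode if its energy is small -/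
lemma decomp [CompleteSpace F] (S : Setup d F) (hG : CGapStmt S) {m : ℝ} (hm : 0 < m)
    {u : Cfg d → F} (hu : S.Inv u) :
    ∃ Ψ : Lp F 2 (volume : Measure (Cfg d)), ClInv S Ψ ∧
      (∀ φ, S.Inv φ → ∫ x, inner ℂ (HH S m φ x) (Ψ x) = 0) ∧
      8 * m * nsq (fun x => u x - Ψ x) ≤ ∑ β, nsq (S.Qm m β u) := by
  set R := (RngSub S m).topologicalClosure with hR
  have hRI : R ≤ (InvSub S).topologicalClosure :=
    Submodule.topologicalClosure_mono (Rng_le_Inv S (All.A2 S) (All.A3 S) m)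
  have : CompleteSpace R := (Submodule.isClosed_topologicalClosure _).completeSpace_coe
  obtain ⟨w, hw, Ψ, hΨ, hsum⟩ := Submodule.exists_add_mem_mem_orthogonal (K := R) (toL hu.1)
  have hΨe : Ψ = toL hu.1 - w := by rw [hsum]; abel
  refine ⟨Ψ, ?_, fun φ hφ => ?_, ?_⟩
  · refine clInv_of_mem S ?_
    have h1 : toL hu.1 ∈ (InvSub S).topologicalClosure :=
      Submodule.le_topologicalClosure _ ⟨u, hu, coe_toL hu.1⟩
    have h2 : Ψ ∈ (InvSub S).topologicalClosure := by
      rw [hΨe]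
      exact Submodule.sub_mem _ h1 (hRI hw)
    exact h2
  · have h1 : toL (Tst_HH S m hφ.1) ∈ R :=
      Submodule.le_topologicalClosure _ ⟨φ, hφ, coe_toL _⟩
    have h2 := (Submodule.mem_orthogonal R Ψ).mp hΨ _ h1
    rw [inner_Lp (coe_toL _) (EventuallyEq.rfl (f := (Ψ : (Cfg d) → F)))] at h2
    exact h2
  · -- the energy controls `w`
    set q : ℝ := ∑ β, nsq (S.Qm m β u) with hq
    have hq0 : 0 ≤ q := Finset.sum_nonneg fun β _ => nsq_nonneg _
    have hwae : (w : Cfg d → F) =ᵐ[volume] fun x => u x - Ψ x := by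
      have e : w = toL hu.1 - Ψ := by rw [hsum]; abel
      rw [e]
      refine (Lp.coeFn_sub _ _).trans ?_
      filter_upwards [coe_toL hu.1] with x hx
      rw [Pi.sub_apply, hx]
    have hwn : nsq (fun x => u x - Ψ x) = ‖w‖ ^ 2 := (norm_Lp hwae).symm
    rw [hwn]
    have hwu : (inner ℂ w (toL hu.1) : ℂ) = ((‖w‖ : ℂ)) ^ 2 := by
      rw [hsum, inner_add_right, inner_self_eq_norm_sq_to_K,
        (Submodule.mem_orthogonal R Ψ).mp hΨ w hw, add_zero]
      rfl
    obtain ⟨g, hg, hl⟩ := mem_closure_iff_seq_limit.mp (show w ∈ closure (RngSub S m : Set _) from hw)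
    choose φ hφ hg2 using hg
    have h1 : ∀ n, ‖inner ℂ (g n) (toL hu.1)‖ ≤ Real.sqrt (‖g n‖ ^ 2 / (8 * m)) * Real.sqrt q := by
      intro n
      rw [inner_Lp (hg2 n) (coe_toL hu.1), inner_HH S m (hφ n).1 hu.1]
      refine (form_cs S m (hφ n).1 hu.1).trans ?_
      refine mul_le_mul_of_nonneg_right (Real.sqrt_le_sqrt ?_) (Real.sqrt_nonneg _)
      rw [le_div_iff₀ (by positivity), norm_Lp (hg2 n), mul_comm]
      exact hG m hm (φ n) (hφ n)
    have h2 : Tendsto (fun n => ‖inner ℂ (g n) (toL hu.1)‖) atTop (𝓝 (‖w‖ ^ 2)) := by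
      have h3 : Tendsto (fun n => ‖inner ℂ (g n) (toL hu.1)‖) atTop
          (𝓝 ‖(inner ℂ w (toL hu.1) : ℂ)‖) := (hl.inner tendsto_const_nhds).norm
      have h4 : ‖(inner ℂ w (toL hu.1) : ℂ)‖ = ‖w‖ ^ 2 := by
        rw [hwu, norm_pow, Complex.norm_real, norm_norm]
      rw [← h4]
      exact h3
    have h5 : Tendsto (fun n => Real.sqrt (‖g n‖ ^ 2 / (8 * m)) * Real.sqrt q) atTop
        (𝓝 (Real.sqrt (‖w‖ ^ 2 / (8 * m)) * Real.sqrt q)) := by
      refine Tendsto.mul_const _ ?_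
      refine (Real.continuous_sqrt.tendsto _).comp ?_
      refine Tendsto.div_const ?_ _
      exact (hl.norm).pow 2
    have h6 := le_of_tendsto_of_tendsto' h2 h5 h1
    rw [← Real.sqrt_mul' _ hq0] at h6
    have hn : 0 ≤ ‖w‖ ^ 2 := sq_nonneg _
    have h7 : (‖w‖ ^ 2) ^ 2 ≤ ‖w‖ ^ 2 / (8 * m) * q := by
      have h8 : 0 ≤ ‖w‖ ^ 2 / (8 * m) * q := by positivity
      calc (‖w‖ ^ 2) ^ 2 ≤ Real.sqrt (‖w‖ ^ 2 / (8 * m) * q) ^ 2 := by gcongr
        _ = _ := Real.sq_sqrt h8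
    rcases hn.eq_or_lt with h0 | h0
    · rw [← h0, mul_zero]; exact hq0
    · have h9 : ‖w‖ ^ 2 * (8 * m * ‖w‖ ^ 2) ≤ ‖w‖ ^ 2 * q := by
        have h10 : ‖w‖ ^ 2 / (8 * m) * q = ‖w‖ ^ 2 * q / (8 * m) := by ring
        rw [h10, le_div_iff₀ (by positivity)] at h7
        nlinarith
      exact le_of_mul_le_mul_left h9 h0

/-- ground states of the model with mass `1 / R²` near a zero mode of the massless model -/
theorem near_zm (hF : FiniteDimensional ℂ F) (hR : Rep M S)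
    (hcore : ∀ u : Cfg d → F, Setup.Tst u → (∀ C x, S.G C u x = 0) → M.IsCore u)
    (Φ : Lp F 2 (volume : Measure (Cfg d))) (hZ : S.IsZM Φ) :
    ∃ B : ℝ → ℝ, Tendsto B atTop (𝓝 0) ∧ ∀ R : ℝ, 1 ≤ R → ∃ Ψ : Cfg d → F,
      M.IsGroundState (1 / R ^ 2) Ψ ∧ nsq (fun x => Ψ x - Φ x) ≤ B R := by
  have : CompleteSpace F := FiniteDimensional.complete ℂ F
  obtain ⟨K, hK, hMM⟩ := small_MM_bound S
  have hw := small_weak S (zj S) Φ hZ
  have hmem : MemLp Φ 2 (volume : Measure (Cfg d)) := Lp.memLp Φ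
  obtain ⟨C, hC, happ⟩ := app S Φ hmem hw.1 hw.2.1 hw.2.2
  set T : ℝ → ℝ := fun R => ∫ x, (if R / 4 ≤ ‖x‖ then ‖Φ x‖ ^ 2 else 0) with hTdef
  set Mo : ℝ → ℝ := fun R =>
    ∫ x, (if ‖x‖ ≤ R then (‖x‖ / R) ^ 2 * ‖Φ x‖ ^ 2 else 0) with hMdef
  have hT0 : Tendsto T atTop (𝓝 0) := small_tail hmem
  have hM0 : Tendsto Mo atTop (𝓝 0) := small_mom hmem
  have hr0 : Tendsto (fun R : ℝ => 1 / R ^ 2) atTop (𝓝 0) := by
    have h2 : Tendsto (fun R : ℝ => R ^ 2) atTop atTop := tendsto_pow_atTop (by norm_num)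
    exact tendsto_const_nhds.div_atTop h2
  set E : ℝ → ℝ := fun R => (1 / R ^ 2) ^ 2 + C * T R with hEdef
  have hE0 : Tendsto E atTop (𝓝 0) := by
    have h := (hr0.pow 2).add (hT0.const_mul C)
    rw [mul_zero, add_zero, zero_pow (by norm_num)] at h
    exact h
  set H : ℝ → ℝ := fun R => 16 * (2 * (1 / R ^ 2) + 2 * C * T R +
    2 * K ^ 2 * (2 * E R + 2 * Mo R)) with hHdef
  have hH0 : Tendsto H atTop (𝓝 0) := by
    have := (((hr0.const_mul 2).add (hT0.const_mul (2 * C))).add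
      (((hE0.const_mul 2).add (hM0.const_mul 2)).const_mul (2 * K ^ 2))).const_mul 16
    simp only [mul_zero, add_zero] at this
    exact this
  refine ⟨fun R => 1 / 4 * H R + 2 * E R, ?_, fun R hR1 => ?_⟩
  · have := (hH0.const_mul (1 / 4)).add (hE0.const_mul 2)
    simpa using this
  have hR0 : 0 < R := by linarith
  set m : ℝ := 1 / R ^ 2 with hm
  have hm0 : 0 < m := by positivity
  have hmR : m * R ^ 2 = 1 := by rw [hm]; field_simp
  obtain ⟨u, hInv, hsupp, hn, hq⟩ := happ R hR1 (m ^ 2) (by positivity)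
  have hTst : Setup.Tst u := hInv.1
  have hE' : nsq (fun x => u x - Φ x) ≤ E R := hn
  have hup : ∑ β, nsq (S.Qm m β u) ≤ m * H R := by
    have h1 : ∀ β ∈ (Finset.univ : Finset (Fin 16)), nsq (S.Qm m β u) ≤
        m * (2 * m + 2 * C * T R + 2 * K ^ 2 * (2 * E R + 2 * Mo R)) := by
      intro β _
      have h2 : nsq (S.Qm m β u) ≤ 2 * nsq (S.Q β u) +
          2 * nsq (fun x => (m : ℂ) • S.MM β x (u x)) :=
        nsq_add_le (hTst.Q S β).memLp ((Setup.Tst.MM S hTst β).cst _).memLp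
      have h3 : nsq (fun x => (m : ℂ) • S.MM β x (u x)) =
          m ^ 2 * nsq (fun x => S.MM β x (u x)) := by
        unfold nsq
        rw [← integral_const_mul]
        refine integral_congr_ae (Filter.Eventually.of_forall fun x => ?_)
        simp only [norm_smul, Complex.norm_real, Real.norm_eq_abs, mul_pow, sq_abs]
      have h4 := small_MM_nsq S hMM hmem hTst hR0 hsupp β
      have h5 := hq β
      have h6 : C / R ^ 2 * T R = m * (C * T R) := by
        rw [hm]; ring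
      have h7 : nsq (fun x => S.MM β x (u x)) ≤
          K ^ 2 * (2 * R ^ 2 * E R + 2 * R ^ 2 * Mo R) := by
        refine h4.trans (mul_le_mul_of_nonneg_left ?_ (by positivity))
        have := mul_le_mul_of_nonneg_left hE' (by positivity : (0 : ℝ) ≤ 2 * R ^ 2)
        linarith
      have h8 : m ^ 2 * nsq (fun x => S.MM β x (u x)) ≤
          m * (K ^ 2 * (2 * E R + 2 * Mo R)) := by
        have h9 := mul_le_mul_of_nonneg_left h7 (sq_nonneg m)
        refine h9.trans (le_of_eq ?_)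
        have : m ^ 2 * (K ^ 2 * (2 * R ^ 2 * E R + 2 * R ^ 2 * Mo R)) =
          m * (m * R ^ 2) * (K ^ 2 * (2 * E R + 2 * Mo R)) := by ring
        rw [this, hmR, mul_one]
      have h5' : nsq (S.Q β u) ≤ m ^ 2 + m * (C * T R) := by
        rw [← h6]; exact h5
      rw [h3] at h2
      nlinarith
    have h10 := Finset.sum_le_card_nsmul _ _ _ h1
    refine h10.trans (le_of_eq ?_)
    simp only [Finset.card_univ, Fintype.card_fin, nsmul_eq_mul, hHdef]
    push_cast
    ring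
  obtain ⟨Ψ, hc, ho, hle⟩ := decomp S
    (cgap S (All.A1 S) (All.A2 S) (All.A3 S) (All.A4 S) (All.A7 S)) hm0 hInv
  obtain ⟨v, hv, hl, hqv⟩ := ws S (All.A7 S) m Ψ hc ho
  refine ⟨Ψ, ⟨hl.mem', v, fun n => hcore (v n) (hv n).1 (hv n).2.1, hl.lim, ?_⟩, ?_⟩
  · have h4 : (fun n => M.massForm m (v n)) =
        fun n => (1 / 16 : ℝ) * ∑ β, nsq (S.Qm m β (v n)) := by
      funext n
      exact mass_form hR m (hv n).1
    rw [h4]
    simpa using hqv.const_mul (1 / 16 : ℝ)
  · have h11 : nsq (fun x => u x - Ψ x) ≤ 1 / 8 * H R := by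
      have h12 : 8 * m * nsq (fun x => u x - Ψ x) ≤ m * H R := hle.trans hup
      have h13 : m * (8 * nsq (fun x => u x - Ψ x)) ≤ m * H R := by linarith
      have := le_of_mul_le_mul_left h13 hm0
      linarith
    have hsub : nsq (fun x => Ψ x - Φ x) ≤ 2 * nsq (fun x => Ψ x - u x) + 2 * nsq (fun x => u x - Φ x) := by
      have e : (fun x => Ψ x - Φ x) = fun x => (Ψ x - u x) + (u x - Φ x) := by
        funext x
        abel
      rw [e]
      exact nsq_add_le ((Lp.memLp Ψ).sub hTst.memLp) (hTst.memLp.sub hmem)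
    have hsw : nsq (fun x => Ψ x - u x) = nsq (fun x => u x - Ψ x) := by
      unfold nsq
      simp only [norm_sub_rev]
    rw [hsw] at hsub
    linarith

end Vale.Agent.P353.H48
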