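import Mathlib
import Vale.Agent.P353.H48.B
import Vale.Agent.P353.H48.C
import Vale.Agent.P353.BdA.B47

set_option linter.all false

/-! # The mass-deformed model: assembly -/

open MeasureTheory Filter Topology
open scoped ContDiff

namespace Vale.Agent.P353.H48

open Vale.Agent.P353.Z Vale.Agent.P353.Z.U

variable {N d : ℕ} {F : Type*} [NormedAddCommGroup F] [InnerProductSpace ℂ F]

theorem core_all (hN : 2 ≤ N) (M : BFSS.Model N d F) {S : Setup d F} (hR : Rep M S) :
    ∀ u : Cfg d → F, Setup.Tst u → (∀ C x, S.G C u x = 0) → M.IsCore u :=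
  fun u hu hG => Fin1.core_of M (finiteDimensional_of_model M) hN S hR u hu hG

/-- the ground states of the model with mass `0` are the zero-energy states -/
theorem zero_iff (hN : 2 ≤ N) (M : BFSS.Model N d F) (Ψ : BFSS.Conf d → F) :
    M.IsGroundState 0 Ψ ↔ M.IsZeroEnergyState Ψ := by
  have hF : FiniteDimensional ℂ F := finiteDimensional_of_model M
  obtain ⟨S, hR⟩ := setS M
  have h0 : ∀ β (u : Cfg d → F), S.Qm 0 β u = S.Q β u := by
    intro β u
    funext x
    simp [Setup.Qm]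
  constructor
  · rintro ⟨hΨ, u, hu, hl, hq⟩
    have hT : ∀ n, Setup.Tst (u n) := fun n => ⟨(hu n).1, (hu n).2.1⟩
    have hΨ' : MemLp Ψ 2 (volume : Measure (Cfg d)) := hΨ
    have hZ : S.IsZM (hΨ'.toLp Ψ) := by
      refine ⟨u, hT, fun n C x => gaussLaw M S hR (u n) (hu n) C x, ?_, fun β => ?_⟩
      · refine hl.congr fun n => ?_
        rw [BFSS.leb]
        refine integral_congr_ae ?_
        filter_upwards [hΨ'.coeFn_toLp] with x hx
        rw [hx]
      · have h16 : Tendsto (fun n => 16 * M.massForm 0 (u n)) atTop (𝓝 0) := by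
          simpa using hq.const_mul 16
        refine squeeze_zero (fun n => integral_nonneg fun x => by positivity) (fun n => ?_) h16
        rw [mass_form hR 0 (hT n)]
        have h1 : nsq (S.Qm 0 β (u n)) ≤ ∑ α, nsq (S.Qm 0 α (u n)) :=
          Finset.single_le_sum (f := fun α => nsq (S.Qm 0 α (u n)))
            (fun α _ => nsq_nonneg _) (Finset.mem_univ β)
        rw [h0 β] at h1
        have h2 : ∫ x, ‖S.Q β (u n) x‖ ^ 2 = nsq (S.Q β (u n)) := rfl
        linarith
    have h1 := Fin1.back_of M (Fin1.core_of M) hF hN S hR _ hZ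
    obtain ⟨-, v, hv, hl', hc, hw⟩ := h1
    refine ⟨hΨ, v, hv, ?_, hc, hw⟩
    refine hl'.congr fun n => ?_
    rw [BFSS.leb]
    refine integral_congr_ae ?_
    filter_upwards [hΨ'.coeFn_toLp] with x hx
    rw [hx]
  · intro h
    have hΨ : MemLp Ψ 2 (volume : Measure (Cfg d)) := h.1
    obtain ⟨u, hT, hG, hl, hQ⟩ := bridge_of_gauss M (gaussLaw M) S hR Ψ hΨ h
    refine ⟨hΨ, u, fun n => core_all hN M hR (u n) (hT n) fun C x => hG n C x, ?_, ?_⟩
    · refine hl.congr fun n => ?_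
      rw [BFSS.leb]
      refine integral_congr_ae ?_
      filter_upwards [hΨ.coeFn_toLp] with x hx
      rw [hx]
    · have h2 : (fun n => M.massForm 0 (u n)) =
          fun n => (1 / 16 : ℝ) * ∑ β, ∫ x, ‖S.Q β (u n) x‖ ^ 2 := by
        funext n
        rw [mass_form hR 0 (hT n)]
        simp only [h0]
        rfl
      rw [h2]
      have h3 := (tendsto_finsetSum (Finset.univ : Finset (Fin 16)) fun β _ => hQ β).const_mul
        (1 / 16 : ℝ)
      simpa using h3

/-- **the plane-wave model has exactly `p(N)` ground states, for every mass `m > 0`** -/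
theorem count_pos (hN : 2 ≤ N) (M : BFSS.Model N d F) {m : ℝ} (hm : 0 < m) :
    ∃ Φ : Fin (Fintype.card (Nat.Partition N)) → BFSS.Conf d → F, (∀ j, M.IsGroundState m (Φ j)) ∧
      (∀ a : Fin (Fintype.card (Nat.Partition N)) → ℂ,
        (∀ᵐ x ∂BFSS.leb d, ∑ j, a j • Φ j x = 0) → a = 0) ∧
      ∀ Ψ, M.IsGroundState m Ψ → ∃ a : Fin (Fintype.card (Nat.Partition N)) → ℂ,
        ∀ᵐ x ∂BFSS.leb d, Ψ x = ∑ j, a j • Φ j x := by
  have hF : FiniteDimensional ℂ F := finiteDimensional_of_model M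
  obtain ⟨S, hR⟩ := setS M
  have hd : 0 < d := by
    have h1 := M.dim_eq
    have h2 : 2 ^ 2 ≤ N ^ 2 := Nat.pow_le_pow_left hN 2
    omega
  have hcnt : S.OrbCount (Fintype.card (Nat.Partition N)) :=
    count_of M (adS M fun S a t => exp_mem S a t) (fun S => sq_stmt S) S hR
  exact count hF hR (gaussLaw M) (core_all hN M hR) hcnt hm
    (AN.G.gMain M hd S hR m hm (8 * m) (by positivity))

/-- the zero function is a ground state -/
theorem ground_zero (M : BFSS.Model N d F) (m : ℝ) : M.IsGroundState m (fun _ => (0 : F)) := by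
  have hc : M.IsCore (fun _ : BFSS.Conf d => (0 : F)) := by
    refine ⟨contDiff_const, HasCompactSupport.zero, fun U x => ?_⟩
    rw [map_zero]
  obtain ⟨S, hR⟩ := setS M
  have hT : Setup.Tst (fun _ : Cfg d => (0 : F)) := ⟨hc.1, hc.2.1⟩
  refine ⟨MemLp.zero', fun _ _ => 0, fun _ => hc, by simp, ?_⟩
  have h1 : M.massForm m (fun _ => (0 : F)) = 0 := by
    rw [mass_form hR m hT]
    have h2 : ∀ β, S.Qm m β (fun _ : Cfg d => (0 : F)) = fun _ => 0 := by
      intro β
      have h3 := fun x => U.HB.Qm_csmul S m β (0 : ℂ) (u := fun _ : Cfg d => (0 : F)) contDiff_const x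
      funext x
      have := h3 x
      simpa using this
    simp [h2, nsq]
  change Tendsto (fun _ : ℕ => M.massForm m (fun _ => (0 : F))) atTop (𝓝 0)
  rw [h1]
  exact tendsto_const_nhds

/-- **the massless limit** -/
theorem massless (hN : 2 ≤ N) (M : BFSS.Model N d F) {Φ : BFSS.Conf d → F}
    (hΦ : M.IsZeroEnergyState Φ) : ∃ Ψ : ℝ → BFSS.Conf d → F,
      (∀ m : ℝ, 0 < m → M.IsGroundState m (Ψ m)) ∧
      Tendsto (fun m : ℝ => ∫ x, ‖Ψ m x - Φ x‖ ^ 2 ∂BFSS.leb d) (𝓝[>] 0) (𝓝 0) := by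
  classical
  have hF : FiniteDimensional ℂ F := finiteDimensional_of_model M
  obtain ⟨S, hR⟩ := setS M
  have hm2 : MemLp Φ 2 (volume : Measure (Cfg d)) := hΦ.1
  have hZ := bridge_of_gauss M (gaussLaw M) S hR Φ hm2 hΦ
  obtain ⟨B, hB, h⟩ := near_zm hF hR (core_all hN M hR) _ hZ
  choose Θ hΘ1 hΘ2 using h
  have hlim : Tendsto (fun m : ℝ => 1 / Real.sqrt m) (𝓝[>] 0) atTop := by
    have h1 : Tendsto (fun m : ℝ => Real.sqrt m) (𝓝[>] 0) (𝓝[>] 0) := by
      refine tendsto_nhdsWithin_iff.mpr ⟨?_, ?_⟩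
      · have := (Real.continuous_sqrt.tendsto 0).mono_left (nhdsWithin_le_nhds (s := Set.Ioi (0 : ℝ)))
        simpa using this
      · filter_upwards [self_mem_nhdsWithin] with m hm
        exact Real.sqrt_pos.mpr hm
    have h2 := tendsto_inv_nhdsGT_zero (𝕜 := ℝ) |>.comp h1
    simpa [Function.comp_def, one_div] using h2
  have hR1 : ∀ m : ℝ, 0 < m → m ≤ 1 → 1 ≤ 1 / Real.sqrt m := by
    intro m hm0 hm1
    rw [le_div_iff₀ (Real.sqrt_pos.mpr hm0), one_mul]
    exact Real.sqrt_le_one.mpr hm1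
  refine ⟨fun m => if h : 0 < m ∧ m ≤ 1 then Θ (1 / Real.sqrt m) (hR1 m h.1 h.2) else fun _ => 0,
    fun m hm => ?_, ?_⟩
  · by_cases h1 : m ≤ 1
    · simp only [dif_pos (And.intro hm h1)]
      have h2 := hΘ1 (1 / Real.sqrt m) (hR1 m hm h1)
      have h3 : 1 / (1 / Real.sqrt m) ^ 2 = m := by
        rw [div_pow, one_pow, Real.sq_sqrt hm.le, one_div_one_div]
      rwa [h3] at h2
    · have h2 : ¬ (0 < m ∧ m ≤ 1) := fun h => h1 h.2
      simp only [dif_neg h2]
      exact ground_zero M m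
  · refine squeeze_zero' (Eventually.of_forall fun m => integral_nonneg fun x => by positivity) ?_
      (hB.comp hlim)
    have h1 : ∀ᶠ m : ℝ in 𝓝[>] 0, 0 < m ∧ m ≤ 1 := by
      filter_upwards [self_mem_nhdsWithin,
        mem_nhdsWithin_of_mem_nhds (Iic_mem_nhds (show (0 : ℝ) < 1 by norm_num))] with m h1 h2
      exact ⟨h1, h2⟩
    filter_upwards [h1] with m hm
    simp only [dif_pos hm]
    have h2 := hΘ2 (1 / Real.sqrt m) (hR1 m hm.1 hm.2)
    refine le_trans (le_of_eq ?_) h2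
    rw [BFSS.leb]
    unfold nsq
    refine integral_congr_ae ?_
    filter_upwards [hm2.coeFn_toLp] with x hx
    rw [hx]

end Vale.Agent.P353.H48
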